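import Vale.Agent.P004G.H394.Gs5
import Vale.Agent.P004G.H253.SX6

/-!
# P004G, package S : the functional equation and the local data of every `y² = x³ + B`
-/

open Real MeasureTheory Set
open scoped ENNReal

namespace P004G
namespace Gs

open Vale.Agent.P006 (O om toC Primary)

open Vale.Agent

/-- the laws of the character of `y² = x³ + B` -/
theorem exists_Hk (B : ℤ) : ∃ F G : O, Hk (SX.MS B) F G (SX.Phi B) ∧ (RS B : O) ∣ F := by
  obtain ⟨F, G, hFG, hR, hper, hprim⟩ := SX.exists_FG B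
  refine ⟨F, G, ⟨SX.MS_ne_zero B, SX.Phi_one B, SX.Phi_mul B, fun u hu => SX.Phi_unit B hu,
    SX.Phi_star B, SX.Phi_val B, ?_, hFG, hper, fun z hz => (SX.Phi_ne_zero_iff' B z).1 hz,
    hprim⟩, hR⟩
  by_contra h
  rw [← Ne, SX.Phi_ne_zero_iff, Vale.Agent.P006.N_lam] at h
  unfold SX.bad at h
  rw [Nat.coprime_mul_iff_right] at h
  exact absurd h.1 (by norm_num)

/-- the functional equation of `y² = x³ + B`, with explicit conductor and root number -/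
theorem feqS (B : ℤ) : ∃ F G : O, Hk (SX.MS B) F G (SX.Phi B) ∧ (RS B : O) ∣ F ∧
    ∀ [Fintype (O ⧸ Ideal.span {((SX.MS B : ℕ) : O)})], ∃ κ : ℝ,
      FEq (SX.AS B) (3 * (P006.N F : ℝ) / 4) κ ∧
      (κ : ℂ) = -HT (SX.MS B) (pC (SX.Phi B)) (star G) / (SX.MS B * toC G) := by
  obtain ⟨F, G, h, hR⟩ := exists_Hk B
  exact ⟨F, G, h, hR, h.feq (fun _ _ => SX.mem_PA) (SX.AS_cast B) (SX.AS_one B)⟩

/-- Package S -/
theorem pfS : StS := by
  refine ⟨72, by norm_num, fun B hB => ?_⟩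
  obtain ⟨F, G, h, hR, hfe⟩ := feqS B
  have : NeZero ((SX.MS B : ℕ) : O) := ⟨h.nO⟩
  obtain ⟨κ, hκ, -⟩ := hfe
  have hNF : 0 < P006.N F := Vale.Agent.P006.N_pos h.F0
  have hNG : 0 < P006.N G := Vale.Agent.P006.N_pos h.G0
  have e1 : (RS B : ℝ) ^ 2 ≤ P006.N F := by
    have := Nat.le_of_dvd hNF (Vale.Agent.P006.N_dvd_N hR)
    rw [Vale.Agent.P006.N_natCast] at this
    exact_mod_cast this
  have e3 : SX.MS B ≤ 72 * RS B := by
    unfold SX.MS
    apply Nat.mul_le_mul_right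
    rcases SX.b2_cases B with hb | hb <;> rw [hb] <;> norm_num
  have e3' : (SX.MS B : ℝ) ≤ 72 * RS B := by exact_mod_cast e3
  have e2 : (P006.N F : ℝ) ≤ (72 * RS B) ^ 2 := by
    have h1 := h.norm_eq
    have h2 : (1 : ℝ) ≤ P006.N G := by exact_mod_cast hNG
    have h3 : (P006.N F : ℝ) ≤ (SX.MS B : ℝ) ^ 2 := by
      rw [← h1]
      nlinarith [(Nat.cast_nonneg (P006.N F) : (0 : ℝ) ≤ P006.N F)]
    exact h3.trans (pow_le_pow_left₀ (Nat.cast_nonneg _) e3' 2)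
  refine ⟨SX.AS B, _, κ, SX.coefS hB, hκ, ?_, ?_⟩
  · apply Real.le_sqrt_of_sq_le
    nlinarith [sq_nonneg (RS B : ℝ)]
  · rw [Real.sqrt_le_left (by positivity)]
    nlinarith [sq_nonneg (RS B : ℝ)]

end Gs
end P004G
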