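import Vale.Agent.P004G.H394.Gs1
import Vale.Agent.P004G.H394.Gs2
import Vale.Agent.P006.CR.Residue

/-!
# P004G, the finite Fourier transform on the Eisenstein integers in the coordinates
`2 z = a + b √-3`
-/

open Real MeasureTheory Set
open scoped ENNReal

namespace P004G
namespace Gs

open Vale.Agent.P006 (O om lam toC N Primary)
open P004 (dft1 dft2)
open Finset (univ)

/-! ### sums over finite groups through a homomorphism -/

lemma sum_hom {G G' : Type*} [AddCommGroup G] [Fintype G] [AddCommGroup G'] [Fintype G']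
    (g : G →+ G') : ∃ c : ℕ, c = Nat.card {x : G // g x = 0} ∧
      ∀ H : G' → ℂ, (∀ y, y ∉ Set.range g → H y = 0) →
      ∑ x, H (g x) = c * ∑ y, H y := by
  classical
  refine ⟨(univ.filter (fun x : G => g x = 0)).card, ?_, fun H hH => ?_⟩
  · rw [Nat.card_eq_fintype_card, Fintype.card_subtype]
  rw [← Finset.sum_fiberwise (s := univ) (g := fun x => g x) (f := fun x => H (g x)),
    Finset.mul_sum]
  refine Finset.sum_congr rfl fun y _ => ?_
  have h3 : ∑ x ∈ univ.filter (fun x => g x = y), H (g x) =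
      ∑ x ∈ univ.filter (fun x => g x = y), H y := by
    refine Finset.sum_congr rfl fun x hx => ?_
    rw [(Finset.mem_filter.1 hx).2]
  rw [h3, Finset.sum_const, nsmul_eq_mul]
  by_cases hy : y ∈ Set.range g
  · congr 2
    exact AddMonoidHom.card_fiber_eq_of_mem_range g hy ⟨0, map_zero _⟩
  · rw [hH y hy]; simp

/-! ### the coordinates -/

/-- the coordinates of `2 z` -/
def io (z : O) : ℤ × ℤ := (2 * z.re - z.im, z.im)

/-- the dual coordinates -/
def io' (w : O) : ℤ × ℤ := (w.im, w.im - 2 * w.re)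

/-- half of `a + b √-3` -/
def ko (p : ℤ × ℤ) : O := ⟨(p.1 + p.2) / 2, p.2⟩

lemma ko_io (z : O) : ko (io z) = z := by
  apply QuadraticAlgebra.ext
  · simp only [ko, io]; omega
  · rfl

lemma io_inj : Function.Injective io := Function.LeftInverse.injective ko_io

lemma mem_range_io (p : ℤ × ℤ) : p ∈ Set.range io ↔ 2 ∣ p.1 - p.2 := by
  constructor
  · rintro ⟨z, rfl⟩
    simp only [io]; omega
  · intro h
    refine ⟨ko p, ?_⟩
    apply Prod.ext
    · simp only [io, ko]; omega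
    · rfl

lemma io'_inj : Function.Injective io' := by
  intro z w h
  have h1 := congrArg Prod.fst h
  have h2 := congrArg Prod.snd h
  simp only [io'] at h1 h2
  apply QuadraticAlgebra.ext
  · omega
  · exact h1

lemma mem_range_io' (p : ℤ × ℤ) : p ∈ Set.range io' ↔ 2 ∣ p.1 - p.2 := by
  constructor
  · rintro ⟨z, rfl⟩
    simp only [io']; omega
  · intro h
    refine ⟨⟨(p.1 - p.2) / 2, p.1⟩, ?_⟩
    apply Prod.ext
    · rfl
    · simp only [io']; omega

/-- the additive character `exp(-2πi Im_ω(v) / n)` -/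
noncomputable def ee (n : ℕ) (v : O) : ℂ :=
  Complex.exp (2 * π * Complex.I * ((-v.im : ℤ) : ℂ) / n)

lemma ee_add (n : ℕ) (v w : O) : ee n (v + w) = ee n v * ee n w := by
  unfold ee
  rw [← Complex.exp_add, QuadraticAlgebra.im_add]
  congr 1
  push_cast
  ring

lemma ee_eq (n : ℕ) [NeZero n] (v : O) :
    ee n v = ZMod.stdAddChar (((-v.im : ℤ)) : ZMod n) := by
  rw [ZMod.stdAddChar_coe]
  rfl

lemma ee_n (n : ℕ) [NeZero n] (t : O) : ee n ((n : O) * t) = 1 := by
  rw [ee_eq]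
  have h1 : (-((n : O) * t).im : ℤ) = (n : ℤ) * (-t.im) := by
    simp
  rw [h1]
  push_cast
  simp

lemma ee_one_iff (n : ℕ) [NeZero n] (v : O) : ee n v = 1 ↔ (n : ℤ) ∣ v.im := by
  rw [ee_eq]
  have h1 : (ZMod.stdAddChar (((-v.im : ℤ)) : ZMod n) : ℂ) = ZMod.stdAddChar (0 : ZMod n) ↔
      (((-v.im : ℤ)) : ZMod n) = 0 := ZMod.injective_stdAddChar.eq_iff
  rw [AddChar.map_zero_eq_one] at h1
  rw [h1, ZMod.intCast_zmod_eq_zero_iff_dvd, dvd_neg]

lemma natCast_dvd_iff (n : ℕ) (z : O) : (n : O) ∣ z ↔ (n : ℤ) ∣ z.re ∧ (n : ℤ) ∣ z.im := by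
  constructor
  · rintro ⟨w, rfl⟩
    exact ⟨⟨w.re, by simp⟩, ⟨w.im, by simp⟩⟩
  · rintro ⟨⟨a, ha⟩, ⟨b, hb⟩⟩
    refine ⟨⟨a, b⟩, ?_⟩
    apply QuadraticAlgebra.ext
    · simp [ha]
    · simp [hb]

lemma ee_prim (n : ℕ) [NeZero n] (z : O) (h : ∀ t, ee n (z * t) = 1) : (n : O) ∣ z := by
  have h1 := h 1
  have h2 := h om
  rw [ee_one_iff] at h1 h2
  rw [mul_one] at h1
  have h3 : (z * om).im = z.re - z.im := by
    simp [om, QuadraticAlgebra.im_mul]
    ring
  rw [h3] at h2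
  rw [natCast_dvd_iff]
  exact ⟨by have := dvd_add h2 h1; rwa [sub_add_cancel] at this, h1⟩

/-! ### the periodic function on pairs -/

/-- `c` in the coordinates `a, b` of `2 z` -/
noncomputable def fo (M : ℕ) (c : O → ℂ) (a b : ZMod M) : ℂ :=
  if (2 : ℤ) ∣ (a.val : ℤ) - (b.val : ℤ) then c (ko ((a.val : ℤ), (b.val : ℤ))) else 0

lemma ko_congr {n : ℕ} {A B A' B' : ℤ} (hA : ((2 * n : ℕ) : ℤ) ∣ A' - A)
    (hB : ((2 * n : ℕ) : ℤ) ∣ B' - B) (h : (2 : ℤ) ∣ A - B) :
    (n : O) ∣ ko (A', B') - ko (A, B) := by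
  obtain ⟨s, hs⟩ := hA
  obtain ⟨t, ht⟩ := hB
  push_cast at hs ht
  rw [natCast_dvd_iff]
  simp only [ko, QuadraticAlgebra.re_sub, QuadraticAlgebra.im_sub]
  constructor
  · refine ⟨s + t, ?_⟩
    have h1 : A' + B' = A + B + 2 * (n * (s + t)) := by linear_combination hs + ht
    rw [h1]
    generalize (n : ℤ) * (s + t) = r
    omega
  · exact ⟨2 * t, by rw [ht]; ring⟩

lemma fo_int (n : ℕ) [NeZero n] {c : O → ℂ} (hc : Per c (n : O)) (A B : ℤ) :
    fo (2 * n) c (A : ZMod (2 * n)) (B : ZMod (2 * n)) =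
      if (2 : ℤ) ∣ A - B then c (ko (A, B)) else 0 := by
  have hval : ∀ A : ℤ, ∃ s : ℤ, (((A : ZMod (2 * n)).val : ℕ) : ℤ) = A + ((2 * n : ℕ) : ℤ) * s := by
    intro A
    refine ⟨-(A / ((2 * n : ℕ) : ℤ)), ?_⟩
    rw [ZMod.val_intCast]
    have := Int.emod_add_mul_ediv A ((2 * n : ℕ) : ℤ)
    linarith
  obtain ⟨s, hs⟩ := hval A
  obtain ⟨t, ht⟩ := hval B
  unfold fo
  have hpar : ((2 : ℤ) ∣ (((A : ZMod (2 * n)).val : ℕ) : ℤ) - (((B : ZMod (2 * n)).val : ℕ) : ℤ)) ↔
      (2 : ℤ) ∣ A - B := by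
    rw [hs, ht]
    have e1 : A + ((2 * n : ℕ) : ℤ) * s - (B + ((2 * n : ℕ) : ℤ) * t) =
        A - B + 2 * (n * (s - t)) := by push_cast; ring
    rw [e1]
    generalize (n : ℤ) * (s - t) = r
    omega
  by_cases h : (2 : ℤ) ∣ A - B
  · rw [if_pos (hpar.2 h), if_pos h]
    apply hc
    apply ko_congr _ _ h
    · rw [hs]; exact ⟨s, by ring⟩
    · rw [ht]; exact ⟨t, by ring⟩
  · rw [if_neg (fun h' => h (hpar.1 h')), if_neg h]

lemma exists_int (M : ℕ) [NeZero M] (x : ZMod M) : ∃ X : ℤ, (X : ZMod M) = x :=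
  ⟨x.val, by simp⟩

/-- the summand of `dft2` at integers -/
lemma char_pair (n : ℕ) [NeZero n] (A B k l : ℤ) :
    (ZMod.stdAddChar ((B : ZMod (2 * n)) * (l : ZMod (2 * n))) : ℂ) *
      ZMod.stdAddChar ((A : ZMod (2 * n)) * (k : ZMod (2 * n))) =
      Complex.exp (2 * π * Complex.I * ((A * k + B * l : ℤ) : ℂ) / ((2 * n : ℕ) : ℂ)) := by
  rw [← AddChar.map_add_eq_mul]
  have h1 : (B : ZMod (2 * n)) * (l : ZMod (2 * n)) + (A : ZMod (2 * n)) * (k : ZMod (2 * n)) =
      ((A * k + B * l : ℤ) : ZMod (2 * n)) := by push_cast; ring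
  rw [h1, ZMod.stdAddChar_coe]

lemma dft2_eq (M : ℕ) [NeZero M] (f : ZMod M → ZMod M → ℂ) (k l : ZMod M) :
    dft2 M f k l = ∑ p : ZMod M × ZMod M, f p.1 p.2 *
      ((ZMod.stdAddChar (p.2 * l) : ℂ) * ZMod.stdAddChar (p.1 * k)) := by
  unfold dft2 dft1
  rw [Fintype.sum_prod_type]
  refine Finset.sum_congr rfl fun a _ => ?_
  rw [Finset.sum_mul]
  refine Finset.sum_congr rfl fun b _ => ?_
  ring

/-- the transform vanishes at pairs of different parity -/
lemma dft2_odd (n : ℕ) [NeZero n] {c : O → ℂ} (hc : Per c (n : O)) {k l : ℤ}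
    (h : ¬ (2 : ℤ) ∣ k - l) : dft2 (2 * n) (fo (2 * n) c) k l = 0 := by
  rw [dft2_eq]
  set H : ZMod (2 * n) × ZMod (2 * n) → ℂ := fun p => fo (2 * n) c p.1 p.2 *
      ((ZMod.stdAddChar (p.2 * (l : ZMod (2 * n))) : ℂ) *
        ZMod.stdAddChar (p.1 * (k : ZMod (2 * n)))) with hH
  have key : ∀ p, H (p + (-(n : ZMod (2 * n)), (n : ZMod (2 * n)))) = -H p := by
    rintro ⟨a, b⟩
    obtain ⟨A, rfl⟩ := exists_int _ a
    obtain ⟨B, rfl⟩ := exists_int _ b
    simp only [hH, Prod.mk_add_mk]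
    have e1 : (A : ZMod (2 * n)) + -(n : ZMod (2 * n)) = ((A - n : ℤ) : ZMod (2 * n)) := by
      push_cast; ring
    have e2 : (B : ZMod (2 * n)) + (n : ZMod (2 * n)) = ((B + n : ℤ) : ZMod (2 * n)) := by
      push_cast; ring
    rw [e1, e2, fo_int n hc, fo_int n hc, char_pair, char_pair]
    by_cases h2 : (2 : ℤ) ∣ A - B
    · have h3 : (2 : ℤ) ∣ A - n - (B + n) := by omega
      rw [if_pos h2, if_pos h3]
      have h4 : c (ko (A - n, B + n)) = c (ko (A, B)) := by
        apply hc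
        rw [natCast_dvd_iff]
        simp only [ko, QuadraticAlgebra.re_sub, QuadraticAlgebra.im_sub]
        constructor
        · have : (A - n + (B + n)) / 2 - (A + B) / 2 = (0 : ℤ) := by
            rw [show A - n + (B + n) = A + B by ring]; ring
          rw [this]; exact dvd_zero _
        · exact ⟨1, by ring⟩
      rw [h4]
      obtain ⟨r, hr⟩ : ∃ r : ℤ, l - k = 2 * r + 1 := ⟨(l - k) / 2, by omega⟩
      have h5 : (((A - n) * k + (B + n) * l : ℤ) : ℂ) = ((A * k + B * l : ℤ) : ℂ) +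
          n * ((2 * r + 1 : ℤ) : ℂ) := by
        rw [← hr]; push_cast; ring
      have hn0 : (n : ℂ) ≠ 0 := by exact_mod_cast NeZero.ne n
      have h6 : 2 * π * Complex.I * (((A - n) * k + (B + n) * l : ℤ) : ℂ) / ((2 * n : ℕ) : ℂ) =
          2 * π * Complex.I * ((A * k + B * l : ℤ) : ℂ) / ((2 * n : ℕ) : ℂ) +
          (π * Complex.I + r * (2 * π * Complex.I)) := by
        rw [h5]
        push_cast
        field_simp
        ring
      rw [h6, Complex.exp_add, Complex.exp_add, Complex.exp_pi_mul_I, Complex.exp_int_mul_two_pi_mul_I]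
      ring
    · have h3 : ¬ (2 : ℤ) ∣ A - n - (B + n) := by omega
      rw [if_neg h2, if_neg h3]
      ring
  have h1 : ∑ p, H p = -∑ p, H p := by
    conv_lhs => rw [← Equiv.sum_comp (Equiv.addRight
      ((-(n : ZMod (2 * n)), (n : ZMod (2 * n))) : ZMod (2 * n) × ZMod (2 * n)))]
    simp only [Equiv.coe_addRight]
    rw [Finset.sum_congr rfl (fun p _ => key p), Finset.sum_neg_distrib]
  have h2 : 2 * ∑ p, H p = 0 := by linear_combination h1
  have h3 := mul_eq_zero.1 h2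
  rcases h3 with h3 | h3
  · norm_num at h3
  · exact h3

/-- `(x, y) ↦ (2 x - y, y)` -/
def g1 (M : ℕ) : ZMod M × ZMod M →+ ZMod M × ZMod M where
  toFun := fun p => (2 * p.1 - p.2, p.2)
  map_zero' := by simp
  map_add' := fun p q => by
    simp only [Prod.fst_add, Prod.snd_add, Prod.mk_add_mk]
    apply Prod.ext
    · simp only; ring
    · rfl

/-- a homomorphism from `ZMod M` -/
noncomputable def lif (n : ℕ) (v : O) :
    ZMod (2 * n) →+ O ⧸ Ideal.span {(n : O)} :=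
  ZMod.lift (2 * n) ⟨(zmultiplesHom _) (Ideal.Quotient.mk (Ideal.span {(n : O)}) v), by
    rw [zmultiplesHom_apply, ← map_zsmul, Ideal.Quotient.eq_zero_iff_mem, Ideal.mem_span_singleton]
    refine ⟨2 * v, ?_⟩
    rw [zsmul_eq_mul]
    push_cast
    ring⟩

lemma lif_int (n : ℕ) (v : O) (X : ℤ) : lif n v (X : ZMod (2 * n)) =
    Ideal.Quotient.mk (Ideal.span {(n : O)}) (X * v) := by
  unfold lif
  rw [ZMod.lift_coe]
  simp only [zmultiplesHom_apply]
  rw [← map_zsmul, zsmul_eq_mul]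

/-- `(x, y) ↦ x + y ω mod n` -/
noncomputable def g2 (n : ℕ) :
    ZMod (2 * n) × ZMod (2 * n) →+ O ⧸ Ideal.span {(n : O)} :=
  (lif n 1).coprod (lif n om)

lemma g2_int (n : ℕ) (X Y : ℤ) : g2 n ((X : ZMod (2 * n)), (Y : ZMod (2 * n))) =
    Ideal.Quotient.mk (Ideal.span {(n : O)}) (⟨X, Y⟩ : O) := by
  unfold g2
  rw [AddMonoidHom.coprod_apply, lif_int, lif_int, ← map_add]
  congr 1
  apply QuadraticAlgebra.ext <;> simp [om]

lemma g2_surj (n : ℕ) : Function.Surjective (g2 n) := by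
  intro q
  obtain ⟨z, rfl⟩ := Ideal.Quotient.mk_surjective q
  exact ⟨((z.re : ZMod (2 * n)), (z.im : ZMod (2 * n))), g2_int n z.re z.im⟩

lemma ker_g1 (n : ℕ) [NeZero n] :
    Nat.card {x : ZMod (2 * n) × ZMod (2 * n) // g1 (2 * n) x = 0} = 2 := by
  classical
  have hn : (0 : ℤ) < n := by exact_mod_cast Nat.pos_of_ne_zero (NeZero.ne n)
  rw [Nat.card_eq_fintype_card, Fintype.card_subtype]
  have h1 : univ.filter (fun x : ZMod (2 * n) × ZMod (2 * n) => g1 (2 * n) x = 0) =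
      {((0 : ZMod (2 * n)), (0 : ZMod (2 * n))), ((n : ZMod (2 * n)), (0 : ZMod (2 * n)))} := by
    ext ⟨a, b⟩
    obtain ⟨A, rfl⟩ := exists_int _ a
    obtain ⟨B, rfl⟩ := exists_int _ b
    simp only [Finset.mem_filter, Finset.mem_univ, true_and, Finset.mem_insert,
      Finset.mem_singleton, Prod.mk.injEq]
    have e1 : g1 (2 * n) ((A : ZMod (2 * n)), (B : ZMod (2 * n))) = 0 ↔
        ((2 * A - B : ℤ) : ZMod (2 * n)) = 0 ∧ (B : ZMod (2 * n)) = 0 := by
      rw [Prod.ext_iff]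
      simp [g1]
    have e2 : (A : ZMod (2 * n)) = (n : ZMod (2 * n)) ↔ ((A - n : ℤ) : ZMod (2 * n)) = 0 := by
      push_cast
      rw [sub_eq_zero]
    rw [e1, e2, ZMod.intCast_zmod_eq_zero_iff_dvd, ZMod.intCast_zmod_eq_zero_iff_dvd,
      ZMod.intCast_zmod_eq_zero_iff_dvd, ZMod.intCast_zmod_eq_zero_iff_dvd]
    push_cast
    constructor
    · rintro ⟨⟨s, hs⟩, ⟨t, ht⟩⟩
      have h3 : A = n * (s + t) := by
        have : 2 * A = 2 * (n * (s + t)) := by linear_combination hs + ht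
        linarith
      rcases Int.even_or_odd' (s + t) with ⟨r, hr | hr⟩
      · left
        exact ⟨⟨r, by rw [h3, hr]; ring⟩, ⟨t, ht⟩⟩
      · right
        exact ⟨⟨r, by rw [h3, hr]; ring⟩, ⟨t, ht⟩⟩
    · rintro (⟨⟨s, hs⟩, ⟨t, ht⟩⟩ | ⟨⟨s, hs⟩, ⟨t, ht⟩⟩)
      · exact ⟨⟨2 * s - t, by rw [hs, ht]; ring⟩, ⟨t, ht⟩⟩
      · exact ⟨⟨2 * s + 1 - t, by linear_combination 2 * hs - ht⟩, ⟨t, ht⟩⟩
  rw [h1, Finset.card_pair]
  intro h
  have h2 := (Prod.ext_iff.1 h).1
  simp only at h2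
  have h3 : ((n : ℤ) : ZMod (2 * n)) = 0 := by push_cast; exact h2.symm
  rw [ZMod.intCast_zmod_eq_zero_iff_dvd] at h3
  have := Int.le_of_dvd hn h3
  push_cast at this
  linarith

/-- the transform at the pairs of equal parity -/
lemma dft2_even (n : ℕ) [NeZero n] [Fintype (O ⧸ Ideal.span {(n : O)})] (c : O → ℂ)
    (hc : Per c (n : O)) (w : O) :
      dft2 (2 * n) (fo (2 * n) c) ((io' w).1 : ℤ) ((io' w).2 : ℤ) =
        2 * RSum (n : O) (fun z => c z * ee n (z * star w)) := by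
  obtain ⟨c1, hc1, h1⟩ := sum_hom (g1 (2 * n))
  obtain ⟨c2, -, h2⟩ := sum_hom (g2 n)
  rw [ker_g1] at hc1
  have hc2 : (c2 : ℂ) = 4 := by
    have e1 := h2 (fun _ => 1) (fun y hy => absurd (g2_surj n y) (by simpa using hy))
    have e2 : Fintype.card (O ⧸ Ideal.span {(n : O)}) = n ^ 2 := by
      rw [← Nat.card_eq_fintype_card]
      exact (Vale.Agent.P006.card_Rs (n : O)).trans (Vale.Agent.P006.N_natCast n)
    simp only [Finset.sum_const, Finset.card_univ, Fintype.card_prod, ZMod.card, e2,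
      nsmul_eq_mul, mul_one] at e1
    have hn0 : (n : ℂ) ≠ 0 := by exact_mod_cast NeZero.ne n
    push_cast at e1
    have e3 : ((c2 : ℂ) - 4) * n ^ 2 = 0 := by linear_combination -e1
    rcases mul_eq_zero.1 e3 with h | h
    · linear_combination h
    · exact absurd h (pow_ne_zero 2 hn0)
  set k := (io' w).1 with hk
  set l := (io' w).2 with hl
  rw [dft2_eq]
  have e1 := h1 (fun p => fo (2 * n) c p.1 p.2 *
      ((ZMod.stdAddChar (p.2 * (l : ZMod (2 * n))) : ℂ) *
        ZMod.stdAddChar (p.1 * (k : ZMod (2 * n))))) ?_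
  · have e2 := h2 (fun q => c q.out * ee n (q.out * star w)) (fun y hy => by
      exact absurd (g2_surj n y) (by simpa using hy))
    have hper : Per (fun z => c z * ee n (z * star w)) (n : O) := by
      intro x y hxy
      simp only
      rw [hc x y hxy]
      obtain ⟨s, hs⟩ := hxy
      have h3 : x * star w = y * star w + (n : O) * (s * star w) := by
        linear_combination (star w) * hs
      rw [h3, ee_add, ee_n, mul_one]
    have hc1' : (c1 : ℂ) = 2 := by rw [hc1]; norm_num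
    have e3 : ∑ x : ZMod (2 * n) × ZMod (2 * n), (fun p : ZMod (2 * n) × ZMod (2 * n) =>
        fo (2 * n) c p.1 p.2 *
      ((ZMod.stdAddChar (p.2 * (l : ZMod (2 * n))) : ℂ) *
        ZMod.stdAddChar (p.1 * (k : ZMod (2 * n))))) (g1 (2 * n) x) =
        ∑ x : ZMod (2 * n) × ZMod (2 * n), (fun q : O ⧸ Ideal.span {(n : O)} =>
          c q.out * ee n (q.out * star w)) (g2 n x) := by
      refine Finset.sum_congr rfl fun x _ => ?_
      obtain ⟨a, b⟩ := x
      obtain ⟨X, rfl⟩ := exists_int _ a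
      obtain ⟨Y, rfl⟩ := exists_int _ b
      have e4 : g1 (2 * n) ((X : ZMod (2 * n)), (Y : ZMod (2 * n))) =
          (((2 * X - Y : ℤ) : ZMod (2 * n)), (Y : ZMod (2 * n))) := by
        apply Prod.ext
        · simp [g1]
        · rfl
      rw [e4, g2_int]
      simp only
      rw [char_pair, fo_int n hc, if_pos (by omega)]
      have e5 : ko (2 * X - Y, Y) = ⟨X, Y⟩ := by
        apply QuadraticAlgebra.ext
        · simp only [ko]; omega
        · rfl
      have e6 := per_out hper (⟨X, Y⟩ : O)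
      rw [e5, e6]
      congr 1
      unfold ee
      congr 1
      have e7 : (2 * X - Y) * k + Y * l = 2 * -((⟨X, Y⟩ : O) * star w).im := by
        rw [hk, hl]
        simp [io', QuadraticAlgebra.im_mul]
        ring
      rw [e7]
      have hn0 : (n : ℂ) ≠ 0 := by exact_mod_cast NeZero.ne n
      push_cast
      field_simp
    rw [e3] at e1
    rw [e1, hc1', hc2] at e2
    unfold RSum
    simp only at e2 ⊢
    linear_combination (1 / 2 : ℂ) * e2
  · rintro ⟨a, b⟩ hy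
    obtain ⟨A, rfl⟩ := exists_int _ a
    obtain ⟨B, rfl⟩ := exists_int _ b
    rw [fo_int n hc, if_neg, zero_mul]
    intro h
    apply hy
    obtain ⟨r, hr⟩ := h
    refine ⟨(((r + B : ℤ) : ZMod (2 * n)), (B : ZMod (2 * n))), ?_⟩
    apply Prod.ext
    · have : A = 2 * (r + B) - B := by linarith
      rw [this]
      simp [g1]
    · rfl

end Gs
end P004G
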