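import Vale.Agent.P004G.H394.Gs3

/-!
# P004G, Poisson summation on the Eisenstein integers
-/

open Real MeasureTheory Set
open scoped ENNReal

namespace P004G
namespace Gs

open Vale.Agent.P006 (O om lam toC N Primary)
open P004 (dft1 dft2)
open Finset (univ)

/-- the Gaussian on `O` -/
noncomputable def EO (t : ℝ) (z : O) : ℂ := ((Real.exp (-π * (N z : ℝ) * t) : ℝ) : ℂ)

lemma N_real (z : O) : (N z : ℝ) = (z.re : ℝ) ^ 2 - z.re * z.im + (z.im : ℝ) ^ 2 := by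
  have h := Vale.Agent.P006.N_cast_int' z
  have h2 : ((N z : ℤ) : ℝ) = ((z.re * z.re - z.re * z.im + z.im * z.im : ℤ) : ℝ) := by rw [h]
  push_cast at h2
  rw [h2]; ring

lemma gk_io (t : ℝ) (z : O) : ((gk (t / 4) (3 * t / 4) (io z) : ℝ) : ℂ) = EO t z := by
  unfold gk EO
  rw [← Real.exp_add, N_real]
  simp only [io]
  push_cast
  congr 1
  ring

lemma gk_io' (t : ℝ) (w : O) : ((gk t (t / 3) (io' w) : ℝ) : ℂ) = EO (4 * t / 3) w := by
  unfold gk EO
  rw [← Real.exp_add, N_real]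
  simp only [io']
  push_cast
  congr 1
  ring

lemma toC_io (z : O) : toC z =
    ((((io z).1 : ℤ) : ℂ) + Complex.I * (√3 : ℝ) * (((io z).2 : ℤ) : ℂ)) / 2 := by
  rw [Vale.Agent.P006.toC_apply]
  have h : Vale.Agent.P006.omC = (-1 + Complex.I * (√3 : ℝ)) / 2 := by
    apply Complex.ext
    · simp [Vale.Agent.P006.omC]
    · simp [Vale.Agent.P006.omC]
  rw [h]
  simp only [io]
  push_cast
  ring

lemma summable_a {t : ℝ} (ht : 0 < t) (c : O → ℂ) (K : ℝ) (hc : ∀ z, ‖c z‖ ≤ K) :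
    Summable (fun z : O => c z * ((((io z).1 : ℤ) : ℂ) * EO t z)) := by
  have h1 := summable_fst (s := t / 4) (t := 3 * t / 4) (by positivity) (by positivity)
    (fun p => c (ko p)) K (fun p => hc _)
  refine (h1.comp_injective io_inj).congr ?_
  intro z
  simp only [Function.comp_apply]
  rw [ko_io, Complex.ofReal_mul, gk_io]
  push_cast
  rfl

lemma summable_b {t : ℝ} (ht : 0 < t) (c : O → ℂ) (K : ℝ) (hc : ∀ z, ‖c z‖ ≤ K) :
    Summable (fun z : O => c z * ((((io z).2 : ℤ) : ℂ) * EO t z)) := by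
  have h1 := summable_snd (s := t / 4) (t := 3 * t / 4) (by positivity) (by positivity)
    (fun p => c (ko p)) K (fun p => hc _)
  refine (h1.comp_injective io_inj).congr ?_
  intro z
  simp only [Function.comp_apply]
  rw [ko_io, Complex.ofReal_mul, gk_io]
  push_cast
  rfl

lemma summable_TT {t : ℝ} (ht : 0 < t) (c : O → ℂ) (K : ℝ) (hc : ∀ z, ‖c z‖ ≤ K) :
    Summable (fun z : O => c z * (toC z * EO t z)) := by
  refine (((summable_a ht c K hc).add
    ((summable_b ht c K hc).mul_left (Complex.I * (√3 : ℝ)))).mul_left (1 / 2)).congr ?_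
  intro z
  rw [toC_io]
  ring

/-- the sum with the first coordinate of `2 z` -/
noncomputable def TA (c : O → ℂ) (t : ℝ) : ℂ := ∑' z : O, c z * ((((io z).1 : ℤ) : ℂ) * EO t z)

/-- the sum with the second coordinate of `2 z` -/
noncomputable def TB (c : O → ℂ) (t : ℝ) : ℂ := ∑' z : O, c z * ((((io z).2 : ℤ) : ℂ) * EO t z)

/-- the theta series of `c` -/
noncomputable def TT (c : O → ℂ) (t : ℝ) : ℂ := ∑' z : O, c z * (toC z * EO t z)

lemma TT_eq {t : ℝ} (ht : 0 < t) (c : O → ℂ) (K : ℝ) (hc : ∀ z, ‖c z‖ ≤ K) :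
    TT c t = (TA c t + Complex.I * (√3 : ℝ) * TB c t) / 2 := by
  unfold TT TA TB
  rw [← tsum_mul_left, ← (summable_a ht c K hc).tsum_add ((summable_b ht c K hc).mul_left _),
    ← tsum_div_const]
  refine tsum_congr fun z => ?_
  rw [toC_io]
  ring

/-- the finite Fourier transform -/
noncomputable def HT (n : ℕ) [Fintype (O ⧸ Ideal.span {(n : O)})] (c : O → ℂ) (w : O) : ℂ :=
  RSum (n : O) (fun z => c z * ee n (z * star w))

lemma per_bdd {n : ℕ} [Fintype (O ⧸ Ideal.span {(n : O)})] {c : O → ℂ} (hc : Per c (n : O)) :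
    ∃ K : ℝ, ∀ z, ‖c z‖ ≤ K := by
  refine ⟨∑ q : O ⧸ Ideal.span {(n : O)}, ‖c q.out‖, fun z => ?_⟩
  rw [← per_out hc z]
  exact Finset.single_le_sum (f := fun q : O ⧸ Ideal.span {(n : O)} => ‖c q.out‖)
    (fun _ _ => norm_nonneg _) (Finset.mem_univ _)

lemma norm_ee (n : ℕ) [NeZero n] (v : O) : ‖ee n v‖ = 1 := by
  unfold ee
  rw [show (2 * π * Complex.I * ((-v.im : ℤ) : ℂ) / n : ℂ) =
    ((2 * π * (-v.im : ℤ) / n : ℝ) : ℂ) * Complex.I by push_cast; ring,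
    Complex.norm_exp_ofReal_mul_I]

lemma HT_bdd (n : ℕ) [NeZero n] [Fintype (O ⧸ Ideal.span {(n : O)})] (c : O → ℂ) :
    ∃ K : ℝ, ∀ w, ‖HT n c w‖ ≤ K := by
  refine ⟨∑ q : O ⧸ Ideal.span {(n : O)}, ‖c q.out‖, fun w => ?_⟩
  unfold HT RSum
  refine (norm_sum_le _ _).trans (le_of_eq ?_)
  refine Finset.sum_congr rfl fun q _ => ?_
  rw [norm_mul, norm_ee, mul_one]

/-- Poisson summation -/
theorem TT_poisson (n : ℕ) [NeZero n] [Fintype (O ⧸ Ideal.span {(n : O)})] (c : O → ℂ)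
    (hc : Per c (n : O)) {u : ℝ} (hu : 0 < u) :
    TT c u = -4 / (3 * (n : ℂ) ^ 3) / (u : ℂ) ^ 2 *
      TT (HT n c) (4 / (3 * (n : ℝ) ^ 2 * u)) := by
  have hn : (0 : ℝ) < n := by exact_mod_cast Nat.pos_of_ne_zero (NeZero.ne n)
  have hs : 0 < u / 4 := by positivity
  have ht : 0 < 3 * u / 4 := by positivity
  set t' : ℝ := 4 / (3 * (n : ℝ) ^ 2 * u) with ht'
  have ht'0 : 0 < t' := by positivity
  obtain ⟨K, hK⟩ := per_bdd hc
  obtain ⟨K', hK'⟩ := HT_bdd n c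
  have e0 : 1 / (((2 * n : ℕ) : ℝ) ^ 2 * (u / 4)) = 1 / ((n : ℝ) ^ 2 * u) := by
    push_cast; field_simp; ring
  have e1 : 1 / (((2 * n : ℕ) : ℝ) ^ 2 * (3 * u / 4)) = 1 / ((n : ℝ) ^ 2 * u) / 3 := by
    push_cast; field_simp; ring
  have e2 : 4 * (1 / ((n : ℝ) ^ 2 * u)) / 3 = t' := by
    rw [ht']; field_simp
  -- the left hand sides
  have hA : TA c u = ∑' p : ℤ × ℤ, fo (2 * n) c p.1 p.2 *
      (((p.1 : ℝ) * gk (u / 4) (3 * u / 4) p : ℝ) : ℂ) := by
    rw [← io_inj.tsum_eq (f := fun p : ℤ × ℤ => fo (2 * n) c p.1 p.2 *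
      (((p.1 : ℝ) * gk (u / 4) (3 * u / 4) p : ℝ) : ℂ))]
    · unfold TA
      refine tsum_congr fun z => ?_
      have h1 : (2 : ℤ) ∣ (io z).1 - (io z).2 := (mem_range_io _).1 ⟨z, rfl⟩
      have h2 : ko ((io z).1, (io z).2) = z := ko_io z
      rw [fo_int n hc, if_pos h1, h2, Complex.ofReal_mul, gk_io]
      push_cast
      rfl
    · intro p hp
      rw [mem_range_io]
      by_contra h
      apply hp
      simp only
      rw [fo_int n hc, if_neg h, zero_mul]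
  have hB : TB c u = ∑' p : ℤ × ℤ, fo (2 * n) c p.1 p.2 *
      (((p.2 : ℝ) * gk (u / 4) (3 * u / 4) p : ℝ) : ℂ) := by
    rw [← io_inj.tsum_eq (f := fun p : ℤ × ℤ => fo (2 * n) c p.1 p.2 *
      (((p.2 : ℝ) * gk (u / 4) (3 * u / 4) p : ℝ) : ℂ))]
    · unfold TB
      refine tsum_congr fun z => ?_
      have h1 : (2 : ℤ) ∣ (io z).1 - (io z).2 := (mem_range_io _).1 ⟨z, rfl⟩
      have h2 : ko ((io z).1, (io z).2) = z := ko_io z
      rw [fo_int n hc, if_pos h1, h2, Complex.ofReal_mul, gk_io]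
      push_cast
      rfl
    · intro p hp
      rw [mem_range_io]
      by_contra h
      apply hp
      simp only
      rw [fo_int n hc, if_neg h, zero_mul]
  -- the right hand sides
  have hA' : ∑' p : ℤ × ℤ, dft2 (2 * n) (fo (2 * n) c) p.1 p.2 *
      (((p.1 : ℝ) * gk (1 / ((n : ℝ) ^ 2 * u)) (1 / ((n : ℝ) ^ 2 * u) / 3) p : ℝ) : ℂ) =
      2 * TB (HT n c) t' := by
    rw [← io'_inj.tsum_eq (f := fun p : ℤ × ℤ => dft2 (2 * n) (fo (2 * n) c) p.1 p.2 *
      (((p.1 : ℝ) * gk (1 / ((n : ℝ) ^ 2 * u)) (1 / ((n : ℝ) ^ 2 * u) / 3) p : ℝ) : ℂ))]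
    · unfold TB
      rw [← tsum_mul_left]
      refine tsum_congr fun w => ?_
      rw [dft2_even n c hc w, Complex.ofReal_mul, gk_io', e2]
      unfold HT
      simp only [io, io']
      push_cast
      ring
    · intro p hp
      rw [mem_range_io']
      by_contra h
      apply hp
      simp only
      rw [dft2_odd n hc h, zero_mul]
  have hB' : ∑' p : ℤ × ℤ, dft2 (2 * n) (fo (2 * n) c) p.1 p.2 *
      (((p.2 : ℝ) * gk (1 / ((n : ℝ) ^ 2 * u)) (1 / ((n : ℝ) ^ 2 * u) / 3) p : ℝ) : ℂ) =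
      -2 * TA (HT n c) t' := by
    rw [← io'_inj.tsum_eq (f := fun p : ℤ × ℤ => dft2 (2 * n) (fo (2 * n) c) p.1 p.2 *
      (((p.2 : ℝ) * gk (1 / ((n : ℝ) ^ 2 * u)) (1 / ((n : ℝ) ^ 2 * u) / 3) p : ℝ) : ℂ))]
    · unfold TA
      rw [← tsum_mul_left]
      refine tsum_congr fun w => ?_
      rw [dft2_even n c hc w, Complex.ofReal_mul, gk_io', e2]
      unfold HT
      simp only [io, io']
      push_cast
      ring
    · intro p hp
      rw [mem_range_io']
      by_contra h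
      apply hp
      simp only
      rw [dft2_odd n hc h, zero_mul]
  have h1 := poisson_fst (2 * n) (fo (2 * n) c) hs ht
  have h2 := poisson_snd (2 * n) (fo (2 * n) c) hs ht
  rw [e0, e1] at h1 h2
  rw [hA'] at h1
  rw [hB'] at h2
  rw [← hA] at h1
  rw [← hB] at h2
  -- the constants
  have h3 : √(3 * u / 4) = √3 * √(u / 4) := by
    rw [show 3 * u / 4 = 3 * (u / 4) by ring, Real.sqrt_mul (by norm_num)]
  have h4 : √(u / 4) * √(u / 4) = u / 4 := Real.mul_self_sqrt hs.le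
  have h5 : √3 * √3 = (3 : ℝ) := Real.mul_self_sqrt (by norm_num)
  have c1 : u / 4 * √(u / 4) * √(3 * u / 4) = √3 * u ^ 2 / 16 := by
    rw [h3]
    linear_combination (u / 4 * √3) * h4
  have c2 : 3 * u / 4 * √(3 * u / 4) * √(u / 4) = 3 * (√3 * u ^ 2 / 16) := by
    rw [h3]
    linear_combination (3 * u / 4 * √3) * h4
  rw [c1] at h1
  rw [c2] at h2
  rw [TT_eq hu c K hK, TT_eq ht'0 _ K' hK', h1, h2]
  have hu' : (u : ℂ) ≠ 0 := by exact_mod_cast hu.ne'
  have hn' : (n : ℂ) ≠ 0 := by exact_mod_cast NeZero.ne n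
  have h30 : ((√3 : ℝ) : ℂ) ≠ 0 := by
    have : √3 ≠ (0 : ℝ) := by positivity
    exact_mod_cast this
  have h5' : ((√3 : ℝ) : ℂ) ^ 2 = 3 := by
    rw [sq]
    exact_mod_cast h5
  set r : ℂ := ((√3 : ℝ) : ℂ) with hr
  push_cast
  rw [← hr]
  field_simp
  have hI : Complex.I ^ 2 = -1 := Complex.I_sq
  generalize TA (HT n c) t' = a
  generalize TB (HT n c) t' = b
  ring_nf
  simp only [h5', hI]
  ring

end Gs
end P004G
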