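import Vale.Agent.P004G.H394.Gs4
import Vale.Agent.P004G.Cm

/-!
# P004G, the theta functional equation on the Eisenstein integers for a completely multiplicative
periodic function
-/

open Real MeasureTheory Set
open scoped ENNReal

namespace P004G
namespace Gs

open Vale.Agent.P006 (O om toC Primary)
open Finset (univ)
open Vale.Agent

/-- the laws of the finite part of a Hecke character of weight one of `ℤ[ω]` with modulus `F`,
`F * G = n` -/
structure Hk (n : ℕ) (F G : O) (Φ : O → O) : Prop where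
  n0 : n ≠ 0
  one : Φ 1 = 1
  mul : ∀ z w, Φ (z * w) = Φ z * Φ w
  unit : ∀ u, IsUnit u → Φ u = star u
  star' : ∀ z, Φ (star z) = star (Φ z)
  val : ∀ z, Φ z = 0 ∨ Φ z * star (Φ z) = 1
  lam0 : Φ P006.lam = 0
  FG : F * G = (n : O)
  per : ∀ z w, F ∣ z - w → Φ z = Φ w
  cop : ∀ z, Φ z ≠ 0 → IsCoprime z (n : O)
  prim : ∀ ϖ : O, Prime ϖ → ϖ ∣ (n : O) →
    ∃ a, Φ a ≠ 0 ∧ Φ a ≠ 1 ∧ (n : O) ∣ (a - 1) * (G * ϖ)

variable {n : ℕ} {F G : O} {Φ : O → O}

/-- the values in `ℂ` -/
noncomputable def pC (Φ : O → O) (z : O) : ℂ := toC (Φ z)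

lemma conj_pC (Φ : O → O) (z : O) : (starRingEnd ℂ) (pC Φ z) = toC (star (Φ z)) :=
  (Vale.Agent.P006.toC_star _).symm

lemma Hk.norm_le (h : Hk n F G Φ) (z : O) : ‖pC Φ z‖ ≤ 1 := by
  rcases h.val z with h1 | h1
  · unfold pC; rw [h1]; simp
  · have h2 := congrArg toC h1
    rw [map_mul, ← conj_pC, map_one] at h2
    change pC Φ z * (starRingEnd ℂ) (pC Φ z) = 1 at h2
    rw [Complex.mul_conj, Complex.normSq_eq_norm_sq] at h2
    have h3 : ‖pC Φ z‖ ^ 2 = 1 := by exact_mod_cast h2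
    nlinarith [norm_nonneg (pC Φ z)]

lemma EO_mul (t : ℝ) (a v : O) : EO t (a * v) = EO ((P006.N a : ℝ) * t) v := by
  unfold EO
  rw [Vale.Agent.P006.N_mul]
  push_cast
  congr 1
  ring

lemma Hk.nO (h : Hk n F G Φ) : (n : O) ≠ 0 := by
  intro h0
  have h1 := congrArg P006.N h0
  rw [Vale.Agent.P006.N_natCast, Vale.Agent.P006.N_zero] at h1
  exact h.n0 (pow_eq_zero_iff (two_ne_zero) |>.1 h1)

lemma Hk.F0 (h : Hk n F G Φ) : F ≠ 0 := by
  rintro rfl
  exact h.nO (by rw [← h.FG, zero_mul])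

lemma Hk.G0 (h : Hk n F G Φ) : G ≠ 0 := by
  rintro rfl
  exact h.nO (by rw [← h.FG, mul_zero])

lemma Hk.norm_eq (h : Hk n F G Φ) : (P006.N F : ℝ) * (P006.N G : ℝ) = (n : ℝ) ^ 2 := by
  have h1 := congrArg P006.N h.FG
  rw [Vale.Agent.P006.N_mul, Vale.Agent.P006.N_natCast] at h1
  exact_mod_cast h1

lemma Hk.perC (h : Hk n F G Φ) : Per (pC Φ) F := fun z w hzw => by unfold pC; rw [h.per z w hzw]

lemma Hk.perCn (h : Hk n F G Φ) : Per (pC Φ) (n : O) := fun z w hzw =>
  h.perC z w ((Dvd.intro G h.FG).trans hzw)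

/-- the transform -/
theorem Hk.hat (h : Hk n F G Φ) [Fintype (O ⧸ Ideal.span {(n : O)})] :
    (∀ w, ¬ star G ∣ w → HT n (pC Φ) w = 0) ∧
      ∀ v, HT n (pC Φ) (star G * v) = HT n (pC Φ) (star G) * pC Φ v := by
  have : NeZero n := ⟨h.n0⟩
  have : NeZero (n : O) := ⟨h.nO⟩
  obtain ⟨hc1, hc2⟩ := main2 (n := (n : O)) h.nO (ee n) (ee_add n) (ee_n n)
    (ee_prim n) (pC Φ) (by unfold pC; rw [h.one, map_one])
    (fun z w => by unfold pC; rw [h.mul, map_mul])
    (fun z => by
      rcases h.val z with h1 | h1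
      · left; unfold pC; rw [h1, map_zero]
      · right
        rw [conj_pC]
        unfold pC
        rw [← map_mul, h1, map_one]) h.FG h.perC
    (fun z hz => by
      apply h.cop
      intro h0
      apply hz
      unfold pC
      rw [h0, map_zero])
    (fun ϖ hp hd => by
      obtain ⟨a, h1, h2, h3⟩ := h.prim ϖ hp hd
      refine ⟨a, ?_, ?_, h3⟩
      · unfold pC
        rwa [Ne, Vale.Agent.P006.toC_eq_zero]
      · unfold pC
        intro h4
        apply h2
        apply Vale.Agent.P006.toC_injective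
        rw [h4, map_one])
  constructor
  · intro w hw
    unfold HT
    apply hc1
    rintro ⟨s, hs⟩
    apply hw
    refine ⟨star s, ?_⟩
    rw [← star_mul', ← hs, star_star]
  · intro v
    have e2 := hc2 (star v)
    unfold HT
    have e3 : star (star G * v) = G * star v := by rw [star_mul', star_star]
    rw [e3, e2, conj_pC, ← h.star', star_star, star_star]
    rfl

/-- the functional equation of the lattice sum -/
theorem Hk.TT_fe (h : Hk n F G Φ) [Fintype (O ⧸ Ideal.span {(n : O)})] {u : ℝ} (hu : 0 < u) :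
    TT (pC Φ) u = (-4 / (3 * (n : ℂ) ^ 3) * (HT n (pC Φ) (star G) * toC (star G))) / (u : ℂ) ^ 2 *
      TT (pC Φ) (1 / (3 * (P006.N F : ℝ) / 4 * u)) := by
  have : NeZero n := ⟨h.n0⟩
  have hs0 : star G ≠ 0 := by rw [Ne, star_eq_zero]; exact h.G0
  have hnorm := h.norm_eq
  have hNF : (0 : ℝ) < P006.N F := by exact_mod_cast Vale.Agent.P006.N_pos h.F0
  have hNG : (0 : ℝ) < P006.N G := by exact_mod_cast Vale.Agent.P006.N_pos h.G0
  obtain ⟨hh1, hh2⟩ := h.hat
  have hn' : (0 : ℝ) < n := by exact_mod_cast Nat.pos_of_ne_zero h.n0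
  have h1 := TT_poisson n (pC Φ) h.perCn hu
  set t' : ℝ := 4 / (3 * (n : ℝ) ^ 2 * u) with ht'
  have e0 : (P006.N G : ℝ) * t' = 1 / (3 * (P006.N F : ℝ) / 4 * u) := by
    rw [ht', ← hnorm]
    field_simp
  have hinj : Function.Injective (fun v : O => star G * v) := fun a b hab =>
    mul_left_cancel₀ hs0 hab
  have h2 : TT (HT n (pC Φ)) t' =
      HT n (pC Φ) (star G) * toC (star G) * TT (pC Φ) ((P006.N G : ℝ) * t') := by
    unfold TT
    rw [← hinj.tsum_eq (f := fun w : O => HT n (pC Φ) w * (toC w * EO t' w)), ← tsum_mul_left]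
    · refine tsum_congr fun v => ?_
      rw [hh2, EO_mul, Vale.Agent.P006.N_star, map_mul]
      ring
    · intro w hw
      by_contra hcon
      apply hw
      simp only
      rw [hh1, zero_mul]
      rintro ⟨s, hs⟩
      exact hcon ⟨s, hs.symm⟩
  rw [h1, h2, e0]
  ring

/-! ### the sum over the primary elements -/

/-- the units -/
def UU : Finset O := {1, om, om ^ 2, -1, -om, -(om ^ 2)}

lemma card_UU : UU.card = 6 := by decide

lemma mem_UU {v : O} : v ∈ UU ↔ IsUnit v := by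
  constructor
  · intro h
    rw [Vale.Agent.P006.isUnit_iff_N]
    simp only [UU, Finset.mem_insert, Finset.mem_singleton] at h
    rcases h with h | h | h | h | h | h <;> subst h <;> decide
  · intro h
    have h1 := Vale.Agent.P006.isUnit_cases h
    simp only [UU, Finset.mem_insert, Finset.mem_singleton]
    exact h1

/-- the indicator of the primary elements -/
noncomputable def PP (z : O) : ℂ := if Primary z then 1 else 0

lemma sum_PP {z : O} (hz : ¬ P006.lam ∣ z) : ∑ v ∈ UU, PP (v * z) = 1 := by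
  obtain ⟨v₀, hu, hp⟩ := Vale.Agent.P006.exists_unit_mul_primary hz
  rw [Finset.sum_eq_single v₀]
  · unfold PP; rw [if_pos hp]
  · intro v hv hne
    unfold PP
    rw [if_neg]
    intro hp2
    apply hne
    rw [mem_UU] at hv
    obtain ⟨w, hw⟩ := hu.exists_left_inv
    have h1 : Primary ((v * w) * (v₀ * z)) := by
      have : v * w * (v₀ * z) = v * z := by linear_combination (v * z) * hw
      rw [this]; exact hp2
    have h2 : Primary (v * w) := by
      rw [mul_comm] at h1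
      exact hp.of_mul h1
    have h3 : v * w = 1 := h2.eq_one (hv.mul (IsUnit.of_mul_eq_one _ hw))
    have : v * (w * v₀) = v₀ := by rw [← mul_assoc, h3, one_mul]
    rw [hw, mul_one] at this
    exact this
  · intro h
    exact absurd (mem_UU.2 hu) h

lemma norm_PP (z : O) : ‖PP z‖ ≤ 1 := by
  unfold PP
  split_ifs <;> simp

lemma Hk.TT_six (h : Hk n F G Φ) {u : ℝ} (hu : 0 < u) :
    TT (pC Φ) u = 6 * ∑' z : O, PP z * (pC Φ z * (toC z * EO u z)) := by
  set H : O → ℂ := fun z => pC Φ z * (toC z * EO u z) with hH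
  have hinv : ∀ v ∈ UU, ∀ z, H (v * z) = H z := by
    intro v hv z
    rw [mem_UU] at hv
    have h1 : star v * v = 1 := by
      rw [mul_comm, ← Vale.Agent.P006.N_mul_star, Vale.Agent.P006.isUnit_iff_N.1 hv, Nat.cast_one]
    have h2 : toC (star v) * toC v = 1 := by rw [← map_mul, h1, map_one]
    simp only [hH]
    have h3 : EO u (v * z) = EO u z := by
      unfold EO
      rw [Vale.Agent.P006.N_mul, Vale.Agent.P006.isUnit_iff_N.1 hv, one_mul]
    have h4 : pC Φ (v * z) = toC (star v) * pC Φ z := by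
      unfold pC
      rw [h.mul, h.unit v hv, map_mul]
    rw [h3, h4, map_mul]
    linear_combination (pC Φ z * toC z * EO u z) * h2
  have hs : ∀ v : O, Summable (fun z => PP (v * z) * H z) := by
    intro v
    have h1 := summable_TT hu (fun z => PP (v * z) * pC Φ z) 1 (fun z => by
      rw [norm_mul]
      exact mul_le_one₀ (norm_PP _) (norm_nonneg _) (h.norm_le z))
    refine h1.congr ?_
    intro z
    simp only [hH]
    ring
  have h1 : TT (pC Φ) u = ∑' z, ∑ v ∈ UU, PP (v * z) * H z := by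
    unfold TT
    refine tsum_congr fun z => ?_
    rw [← Finset.sum_mul]
    by_cases hz : P006.lam ∣ z
    · have h2 : pC Φ z = 0 := by
        obtain ⟨y, rfl⟩ := hz
        unfold pC
        rw [h.mul, h.lam0, zero_mul, map_zero]
      simp only [hH]
      rw [h2, zero_mul, mul_zero]
    · rw [sum_PP hz, one_mul]
  rw [h1, Summable.tsum_finsetSum (fun v _ => hs v)]
  have h2 : ∀ v ∈ UU, ∑' z, PP (v * z) * H z = ∑' z, PP z * H z := by
    intro v hv
    have hv' := mem_UU.1 hv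
    rw [← (Units.mulLeft hv'.unit).tsum_eq (fun z => PP z * H z)]
    refine tsum_congr fun z => ?_
    rw [Units.mulLeft_apply, IsUnit.unit_spec, hinv v hv]
  rw [Finset.sum_congr rfl h2, Finset.sum_const, card_UU]
  simp [hH]

/-- the sum over the primary elements as a Dirichlet-type series -/
lemma Hk.hasSum_prim (h : Hk n F G Φ) {A : ℕ → ℤ} {PA : ℕ → Finset O}
    (hPA : ∀ m z, z ∈ PA m ↔ Primary z ∧ P006.N z = m)
    (hA : ∀ m, ((A m : ℤ) : O) = ∑ z ∈ PA m, Φ z * z) {u : ℝ} (hu : 0 < u) :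
    HasSum (fun m : ℕ => (((A m : ℝ) * Real.exp (-π * m * u) : ℝ) : ℂ))
      (∑' z : O, PP z * (pC Φ z * (toC z * EO u z))) := by
  have hs : Summable (fun z : O => PP z * (pC Φ z * (toC z * EO u z))) := by
    have h1 := summable_TT hu (fun z => PP z * pC Φ z) 1 (fun z => by
      rw [norm_mul]
      exact mul_le_one₀ (norm_PP _) (norm_nonneg _) (h.norm_le z))
    refine h1.congr ?_
    intro z
    ring
  have h1 := hs.hasSum.tsum_fiberwise (fun z : O => P006.N z)
  refine h1.congr_fun ?_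
  intro m
  rw [tsum_subtype ((fun z : O => P006.N z) ⁻¹' {m})
    (fun z : O => PP z * (pC Φ z * (toC z * EO u z)))]
  rw [tsum_eq_sum (s := PA m)]
  · have h2 : ∀ z ∈ PA m, ((fun z : O => P006.N z) ⁻¹' {m}).indicator
        (fun z : O => PP z * (pC Φ z * (toC z * EO u z))) z =
        toC (Φ z * z) * ((Real.exp (-π * m * u) : ℝ) : ℂ) := by
      intro z hz
      rw [hPA] at hz
      have h3 : z ∈ (fun z : O => P006.N z) ⁻¹' {m} := by
        simp [hz.2]
      rw [Set.indicator_of_mem h3]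
      unfold PP pC EO
      rw [if_pos hz.1, one_mul, map_mul, hz.2]
      ring
    rw [Finset.sum_congr rfl h2, ← Finset.sum_mul, ← map_sum, ← hA,
      Vale.Agent.P006.toC_intCast]
    push_cast
    rfl
  · intro z hz
    by_cases h3 : z ∈ (fun z : O => P006.N z) ⁻¹' {m}
    · rw [Set.indicator_of_mem h3]
      unfold PP
      rw [if_neg, zero_mul]
      intro h4
      apply hz
      rw [hPA]
      exact ⟨h4, by simpa using h3⟩
    · rw [Set.indicator_of_notMem h3]

lemma Hk.TT_TH (h : Hk n F G Φ) {A : ℕ → ℤ} {PA : ℕ → Finset O}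
    (hPA : ∀ m z, z ∈ PA m ↔ Primary z ∧ P006.N z = m)
    (hA : ∀ m, ((A m : ℤ) : O) = ∑ z ∈ PA m, Φ z * z) {u : ℝ} (hu : 0 < u) :
    TT (pC Φ) u = 3 / 2 * ((TH A u : ℝ) : ℂ) := by
  rw [h.TT_six hu, ← (h.hasSum_prim hPA hA hu).tsum_eq]
  unfold TH
  rw [Complex.ofReal_mul, Complex.ofReal_tsum]
  push_cast
  ring

/-! ### from a complex constant to the root number -/

/-- the theta series does not vanish identically -/
lemma exists_TH_ne {A : ℕ → ℤ} (h0 : A 0 = 0) (h1 : A 1 = 1)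
    (hsA : ∀ u : ℝ, 0 < u → Summable (fun n : ℕ => (A n : ℝ) * Real.exp (-π * n * u))) :
    ∃ v : ℝ, 0 < v ∧ TH A v ≠ 0 := by
  have hs1 := (hsA 1 one_pos).norm
  set S : ℝ := ∑' n : ℕ, ‖(A n : ℝ) * Real.exp (-π * n * 1)‖ with hS
  have hS0 : 0 ≤ S := tsum_nonneg fun _ => norm_nonneg _
  set v : ℝ := 1 + S * Real.exp (2 * π) with hv
  have hv1 : 1 ≤ v := by rw [hv]; have := Real.exp_pos (2 * π); nlinarith
  have hv0 : 0 < v := by linarith
  refine ⟨v, hv0, ?_⟩
  have hs := hsA v hv0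
  have e1 := hs.tsum_eq_add_tsum_ite 1
  rw [h1] at e1
  have hb : ∀ n : ℕ, ‖(if n = 1 then 0 else (A n : ℝ) * Real.exp (-π * n * v) : ℝ)‖ ≤
      Real.exp (-2 * π * (v - 1)) * ‖(A n : ℝ) * Real.exp (-π * n * 1)‖ := by
    intro n
    by_cases hn0 : n = 0
    · rw [hn0, h0]
      simp
    by_cases hn : n = 1
    · rw [if_pos hn, norm_zero]; positivity
    · rw [if_neg hn, norm_mul, norm_mul, Real.norm_eq_abs (Real.exp _),
        Real.norm_eq_abs (Real.exp _), abs_of_pos (Real.exp_pos _), abs_of_pos (Real.exp_pos _)]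
      have hn2 : (2 : ℝ) ≤ n := by
        have : 2 ≤ n := by omega
        exact_mod_cast this
      have e1 : Real.exp (-π * n * v) ≤ Real.exp (-2 * π * (v - 1)) * Real.exp (-π * n * 1) := by
        rw [← Real.exp_add]
        apply Real.exp_le_exp.2
        nlinarith [Real.pi_pos, mul_nonneg (mul_nonneg Real.pi_pos.le (sub_nonneg.2 hn2))
          (sub_nonneg.2 hv1)]
      calc ‖(A n : ℝ)‖ * Real.exp (-π * n * v)
          ≤ ‖(A n : ℝ)‖ * (Real.exp (-2 * π * (v - 1)) * Real.exp (-π * n * 1)) := by gcongr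
        _ = _ := by ring
  have hs2 : Summable (fun n : ℕ => Real.exp (-2 * π * (v - 1)) *
      ‖(A n : ℝ) * Real.exp (-π * n * 1)‖) := hs1.mul_left _
  have h3 : ‖∑' n : ℕ, (if n = 1 then 0 else (A n : ℝ) * Real.exp (-π * n * v) : ℝ)‖ ≤
      Real.exp (-2 * π * (v - 1)) * S := by
    rw [hS, ← tsum_mul_left]
    exact tsum_of_norm_bounded hs2.hasSum hb
  have h5 : Real.exp (-2 * π * (v - 1)) * S < Real.exp (-π * v) := by
    have e1 : S * Real.exp (2 * π) < Real.exp (π * v) := by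
      have e2 : v ≤ π * v := by nlinarith [Real.pi_gt_three]
      have e3 := Real.add_one_le_exp (π * v)
      linarith
    have e4 : Real.exp (-2 * π * (v - 1)) = Real.exp (2 * π) * Real.exp (-2 * π * v) := by
      rw [← Real.exp_add]; ring_nf
    have e5 : Real.exp (-π * v) = Real.exp (π * v) * Real.exp (-2 * π * v) := by
      rw [← Real.exp_add]; ring_nf
    rw [e4, e5]
    have := Real.exp_pos (-2 * π * v)
    nlinarith
  intro hz
  unfold TH at hz
  have h6 : ∑' n : ℕ, (A n : ℝ) * Real.exp (-π * n * v) = 0 := by linarith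
  rw [h6] at e1
  simp only [Nat.cast_one, mul_one, Int.cast_one, one_mul] at e1
  rw [Real.norm_eq_abs] at h3
  have h7 := abs_le.1 h3
  linarith [h7.1]

/-- from a functional equation with a complex constant -/
lemma feq_of_const {A : ℕ → ℤ} {q : ℝ} {c : ℂ} (hq : 0 < q)
    (hfe : ∀ u : ℝ, 0 < u → ((TH A u : ℝ) : ℂ) = c / (u : ℂ) ^ 2 * ((TH A (1 / (q * u)) : ℝ) : ℂ))
    (hne : ∃ v : ℝ, 0 < v ∧ TH A v ≠ 0) : ∃ κ : ℝ, FEq A q κ ∧ (κ : ℂ) = c * q := by
  obtain ⟨v, hv, hne⟩ := hne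
  have hw : 0 < 1 / (q * v) := by positivity
  have e1 := hfe v hv
  have hv' : (v : ℂ) ≠ 0 := by exact_mod_cast hv.ne'
  have hTv : ((TH A v : ℝ) : ℂ) ≠ 0 := by exact_mod_cast hne
  have hTw : ((TH A (1 / (q * v)) : ℝ) : ℂ) ≠ 0 := by
    intro h
    rw [h, mul_zero] at e1
    exact hTv e1
  -- the constant is real
  set r : ℝ := TH A v * v ^ 2 / TH A (1 / (q * v)) with hr
  have hc : c = (r : ℂ) := by
    rw [hr]
    push_cast
    rw [eq_div_iff hTw, e1]
    field_simp
  have hfr : ∀ u : ℝ, 0 < u → TH A u = r / u ^ 2 * TH A (1 / (q * u)) := by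
    intro u hu
    have := hfe u hu
    rw [hc] at this
    exact_mod_cast this
  have e2 := hfr v hv
  have e3 := hfr _ hw
  have e4 : 1 / (q * (1 / (q * v))) = v := by field_simp
  rw [e4] at e3
  rw [e3] at e2
  have e5 : r / v ^ 2 * (r / (1 / (q * v)) ^ 2 * TH A v) = (r * q) ^ 2 * TH A v := by
    field_simp
  rw [e5] at e2
  have e6 : (r * q) ^ 2 = 1 := mul_right_cancel₀ hne (by rw [one_mul]; exact e2.symm)
  have e7 : r * q = 1 ∨ r * q = -1 := by
    have h : (r * q - 1) * (r * q + 1) = 0 := by linear_combination e6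
    rcases mul_eq_zero.1 h with h | h
    · left; linarith
    · right; linarith
  refine ⟨r * q, ⟨hq, e7, ?_⟩, by rw [hc]; push_cast; ring⟩
  intro u hu
  rw [hfr u hu]
  congr 1
  field_simp

/-- **the functional equation**, with the root number -/
theorem Hk.feq (h : Hk n F G Φ) [Fintype (O ⧸ Ideal.span {(n : O)})] {A : ℕ → ℤ}
    {PA : ℕ → Finset O} (hPA : ∀ m z, z ∈ PA m ↔ P006.N z = m ∧ Primary z)
    (hA : ∀ m, ((A m : ℤ) : O) = ∑ z ∈ PA m, Φ z * z) (h1 : A 1 = 1) :
    ∃ κ : ℝ, FEq A (3 * (P006.N F : ℝ) / 4) κ ∧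
      (κ : ℂ) = -HT n (pC Φ) (star G) / (n * toC G) := by
  have hNF : (0 : ℝ) < P006.N F := by exact_mod_cast Vale.Agent.P006.N_pos h.F0
  have hq : 0 < 3 * (P006.N F : ℝ) / 4 := by positivity
  have hPA' : ∀ m z, z ∈ PA m ↔ Primary z ∧ P006.N z = m := fun m z => by rw [hPA]; tauto
  have h0 : A 0 = 0 := by
    have e1 := hA 0
    have e2 : PA 0 = ∅ := by
      rw [Finset.eq_empty_iff_forall_notMem]
      intro z hz
      rw [hPA', Vale.Agent.P006.N_eq_zero] at hz
      exact hz.1.ne_zero hz.2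
    rw [e2, Finset.sum_empty] at e1
    exact_mod_cast e1
  have hsA : ∀ u : ℝ, 0 < u → Summable (fun n : ℕ => (A n : ℝ) * Real.exp (-π * n * u)) := by
    intro u hu
    have e1 := (h.hasSum_prim hPA' hA hu).summable.norm
    refine Summable.of_norm ?_
    refine e1.congr ?_
    intro n
    rw [Complex.norm_real]
  obtain ⟨κ, hκ, hκ2⟩ := feq_of_const (A := A) (q := 3 * (P006.N F : ℝ) / 4)
    (c := -4 / (3 * (n : ℂ) ^ 3) * (HT n (pC Φ) (star G) * toC (star G))) hq (fun u hu => by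
    have e1 := h.TT_fe hu
    rw [h.TT_TH hPA' hA hu,
      h.TT_TH hPA' hA (u := 1 / (3 * (P006.N F : ℝ) / 4 * u)) (by positivity)] at e1
    linear_combination (2 / 3 : ℂ) * e1) (exists_TH_ne h0 h1 hsA)
  refine ⟨κ, hκ, ?_⟩
  rw [hκ2]
  have hn0 : (n : ℂ) ≠ 0 := by exact_mod_cast h.n0
  have hG : toC G ≠ 0 := by rw [Ne, Vale.Agent.P006.toC_eq_zero]; exact h.G0
  have e1 : toC G * toC (star G) = (P006.N G : ℂ) := by
    rw [← map_mul, ← Vale.Agent.P006.N_mul_star, Vale.Agent.P006.toC_natCast]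
  have e2 : ((P006.N F : ℕ) : ℂ) * ((P006.N G : ℕ) : ℂ) = (n : ℂ) ^ 2 := by exact_mod_cast h.norm_eq
  rw [eq_div_iff (mul_ne_zero hn0 hG)]
  push_cast
  field_simp
  linear_combination (-HT n (pC Φ) (star G) * (P006.N F : ℂ)) * e1 - (HT n (pC Φ) (star G)) * e2

end Gs
end P004G
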